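/-
Row 152, module GC (guard calculus), helper22.   THE MAX-NORM CALCULUS ON `Y = θ(X) * ⟨j⟩`.
Abstract setting: groups `X`, `Y`, a homomorphism `θ : X →* Y`, an involution `j : Y`, a length structure on `X`.
`Sm b y`:  `y = (∏ₖ θ(wₖ) j θ(wₖ)⁻¹) θ(wₑ)` with all positions `wₖ`, `wₑ` of length `≤ b`.
`Sm` is subadditive; an element which is `Sm b` has an alternating form with syllables of length `≤ 2b`, and its coset `A y` is
`A`, `A j` or `A θ(x)` with `x` of length `≤ 2b`.
-/
import Mathlib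

set_option autoImplicit false

namespace Claimed.Agent.R152.GC

variable {X Y : Type*} [Group X] [Group Y]

/-- A length structure on a group (balls of a word metric). -/
structure Ball (X : Type*) [Group X] where
  /-- `B n x`: `x` has length `≤ n` -/
  B : ℕ → X → Prop
  one : B 0 1
  mul : ∀ {n m : ℕ} {x y : X}, B n x → B m y → B (n + m) (x * y)
  inv : ∀ {n : ℕ} {x : X}, B n x → B n x⁻¹
  mono : ∀ {n m : ℕ} {x : X}, n ≤ m → B n x → B m x

variable (β : Ball X) (θ : X →* Y) (j : Y)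

/-- `θ(w) j θ(w)⁻¹`. -/
def cj (w : X) : Y := θ w * j * (θ w)⁻¹

/-- Small elements of `Y`. -/
def Sm (b : ℕ) (y : Y) : Prop :=
  ∃ (ws : List X) (we : X), (∀ w ∈ ws, β.B b w) ∧ β.B b we ∧ y = (ws.map (cj θ j)).prod * θ we

variable {β θ j}

theorem cj_mul_cj (hj : j * j = 1) (w : X) : cj θ j w * cj θ j w = 1 := by
  show θ w * j * (θ w)⁻¹ * (θ w * j * (θ w)⁻¹) = 1
  have h1 : θ w * j * (θ w)⁻¹ * (θ w * j * (θ w)⁻¹) = θ w * (j * j) * (θ w)⁻¹ := by group
  rw [h1, hj]
  group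

theorem cj_inv (hj : j * j = 1) (w : X) : (cj θ j w)⁻¹ = cj θ j w := by
  exact inv_eq_of_mul_eq_one_right (cj_mul_cj hj w)

/-- `θ(v) cj(w) = cj(v w) θ(v)`. -/
theorem map_mul_cj (v w : X) : θ v * cj θ j w = cj θ j (v * w) * θ v := by
  show θ v * (θ w * j * (θ w)⁻¹) = θ (v * w) * j * (θ (v * w))⁻¹ * θ v
  rw [map_mul]
  group

theorem map_mul_prod_cj (v : X) (ws : List X) :
    θ v * (ws.map (cj θ j)).prod = ((ws.map (fun w => v * w)).map (cj θ j)).prod * θ v := by
  induction ws with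
  | nil => simp
  | cons w ws ih =>
    simp only [List.map_cons, List.prod_cons]
    rw [← mul_assoc, map_mul_cj, mul_assoc, ih, mul_assoc]

theorem Sm.one : Sm β θ j 0 1 := by
  exact ⟨[], 1, by simp, β.one, by simp⟩

theorem Sm.jj : Sm β θ j 0 j := by
  refine ⟨[1], 1, ?_, β.one, ?_⟩
  · intro w hw
    rw [List.mem_singleton] at hw
    rw [hw]
    exact β.one
  · show j = ([θ 1 * j * (θ 1)⁻¹] : List Y).prod * θ 1
    simp

theorem Sm.map {b : ℕ} {x : X} (h : β.B b x) : Sm β θ j b (θ x) := by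
  exact ⟨[], x, by simp, h, by simp⟩

theorem Sm.cj {b : ℕ} {x : X} (h : β.B b x) : Sm β θ j b (cj θ j x) := by
  refine ⟨[x], 1, ?_, β.mono (Nat.zero_le _) β.one, by simp⟩
  intro w hw
  rw [List.mem_singleton] at hw
  rw [hw]
  exact h

theorem Sm.mono {b b' : ℕ} (hb : b ≤ b') {y : Y} (h : Sm β θ j b y) : Sm β θ j b' y := by
  obtain ⟨ws, we, h1, h2, h3⟩ := h
  exact ⟨ws, we, fun w hw => β.mono hb (h1 w hw), β.mono hb h2, h3⟩

/-- Subadditivity: the positions of `y'` are shifted by `wₑ` (`map_mul_prod_cj`). -/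
theorem Sm.mul {b b' : ℕ} {y y' : Y} (h : Sm β θ j b y) (h' : Sm β θ j b' y') :
    Sm β θ j (b + b') (y * y') := by
  obtain ⟨ws, we, h1, h2, rfl⟩ := h
  obtain ⟨ws', we', h1', h2', rfl⟩ := h'
  refine ⟨ws ++ ws'.map (fun w => we * w), we * we', ?_, β.mul h2 h2', ?_⟩
  · intro w hw
    rw [List.mem_append, List.mem_map] at hw
    rcases hw with hw | ⟨w', hw', rfl⟩
    · exact β.mono (Nat.le_add_right _ _) (h1 w hw)
    · exact β.mul h2 (h1' w' hw')
  · rw [List.map_append, List.prod_append, map_mul, mul_assoc, mul_assoc, ← mul_assoc (θ we),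
      map_mul_prod_cj, mul_assoc]

/-- `y⁻¹ = θ(wₑ)⁻¹ ∏ (reversed) cj(wₖ) = ∏ cj(wₑ⁻¹ wₖ) θ(wₑ⁻¹)`. -/
theorem Sm.inv (hj : j * j = 1) {b : ℕ} {y : Y} (h : Sm β θ j b y) : Sm β θ j (2 * b) y⁻¹ := by
  obtain ⟨ws, we, h1, h2, rfl⟩ := h
  refine ⟨ws.reverse.map (fun w => we⁻¹ * w), we⁻¹, ?_, β.mono (by omega) (β.inv h2), ?_⟩
  · intro w hw
    rw [List.mem_map] at hw
    obtain ⟨w', hw', rfl⟩ := hw
    have h3 := β.mul (β.inv h2) (h1 w' (List.mem_reverse.1 hw'))
    rwa [← two_mul] at h3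
  · rw [← map_mul_prod_cj, mul_inv_rev, map_inv, List.prod_inv_reverse, List.map_map,
      List.map_reverse]
    congr 3
    refine List.map_congr_left fun w _ => ?_
    exact cj_inv hj w

/-! ### Tracking of the coset `A y` -/

/-- for `l ∈ L`: `cj l = θ l (j θ(l⁻¹) j) j ∈ A j`. -/
theorem track_prod_cj_mem (hj : j * j = 1) (A : Subgroup Y) (L : Subgroup X)
    (hL : ∀ l ∈ L, θ l ∈ A) (hX : ∀ x : X, j * θ x * j ∈ A) {l : X} (hl : l ∈ L) :
    ∃ a ∈ A, cj θ j l = a * j := by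
  refine ⟨θ l * (j * θ l⁻¹ * j), A.mul_mem (hL l hl) (hX _), ?_⟩
  show θ l * j * (θ l)⁻¹ = θ l * (j * θ l⁻¹ * j) * j
  rw [map_inv]
  calc θ l * j * (θ l)⁻¹ = θ l * j * (θ l)⁻¹ * (j * j) := by rw [hj, mul_one]
    _ = θ l * (j * (θ l)⁻¹ * j) * j := by group

/-- The product of the conjugates. Induction on `ws` FROM THE RIGHT (`List.reverseRecOn`), state `A`, `A j`, `A θ(v)` with `v = wₖ⁻¹`:
* `A · cj w`: `w ∉ L`: `cj w ∈ A`; `w ∈ L`: `cj w = θ w (j θ(w⁻¹) j) j ∈ A j`.
* `A j · cj w = A (j θ(w) j) θ(w⁻¹) = A θ(w⁻¹)` (which is `A` if `w ∈ L`).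
* `A θ(v) · cj w = A cj(v w) θ(v)`: `v w ∉ L`: `= A θ(v)` (length of `v w` is `≤ 2b`); `v w ∈ L`: `cj (v w) ∈ A j`, and
  `A j θ(v) = A (j θ(v) j) j = A j`. -/
theorem track_prod (hj : j * j = 1) (A : Subgroup Y) (L : Subgroup X) (hL : ∀ l ∈ L, θ l ∈ A)
    (hX : ∀ x : X, j * θ x * j ∈ A) (b : ℕ)
    (IH : ∀ w : X, β.B (2 * b) w → w ∉ L → cj θ j w ∈ A) (ws : List X) (hws : ∀ w ∈ ws, β.B b w) :
    (ws.map (cj θ j)).prod ∈ A ∨ (∃ a ∈ A, (ws.map (cj θ j)).prod = a * j) ∨
      ∃ v : X, β.B b v ∧ v ∉ L ∧ ∃ a ∈ A, (ws.map (cj θ j)).prod = a * θ v := by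
  induction ws using List.reverseRecOn with
  | nil => left; simp
  | append_singleton ws w ih =>
    have hw : β.B b w := hws w (by simp)
    have ih' := ih (fun w' hw' => hws w' (by simp [hw']))
    have hprod : ((ws ++ [w]).map (cj θ j)).prod = (ws.map (cj θ j)).prod * cj θ j w := by simp
    rw [hprod]
    have h2b : b ≤ 2 * b := by omega
    rcases ih' with h1 | ⟨a, ha, h1⟩ | ⟨v, hv, hvL, a, ha, h1⟩
    · by_cases hwL : w ∈ L
      · obtain ⟨a', ha', h2⟩ := track_prod_cj_mem hj A L hL hX hwL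
        right; left
        exact ⟨_ * a', A.mul_mem h1 ha', by rw [h2, mul_assoc]⟩
      · left
        exact A.mul_mem h1 (IH w (β.mono h2b hw) hwL)
    · have h2 : (ws.map (cj θ j)).prod * cj θ j w = a * (j * θ w * j) * θ w⁻¹ := by
        rw [h1, map_inv]
        show a * j * (θ w * j * (θ w)⁻¹) = _
        group
      rw [h2]
      by_cases hwL : w ∈ L
      · left
        exact A.mul_mem (A.mul_mem ha (hX w)) (hL _ (L.inv_mem hwL))
      · right; right
        exact ⟨w⁻¹, β.inv hw, fun h => hwL (by simpa using L.inv_mem h), _,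
          A.mul_mem ha (hX w), rfl⟩
    · have h2 : (ws.map (cj θ j)).prod * cj θ j w = a * cj θ j (v * w) * θ v := by
        rw [h1, mul_assoc, map_mul_cj, mul_assoc]
      rw [h2]
      by_cases hvw : v * w ∈ L
      · obtain ⟨a', ha', h3⟩ := track_prod_cj_mem hj A L hL hX hvw
        right; left
        refine ⟨a * a' * (j * θ v * j), A.mul_mem (A.mul_mem ha ha') (hX v), ?_⟩
        rw [h3]
        calc a * (a' * j) * θ v = a * a' * (j * θ v) * (j * j) := by rw [hj]; group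
          _ = a * a' * (j * θ v * j) * j := by group
      · right; right
        have h3 := β.mul hv hw
        rw [← two_mul] at h3
        exact ⟨v, hv, hvL, a * cj θ j (v * w), A.mul_mem ha (IH _ h3 hvw), rfl⟩

/-- TRACKING. `y ∈ A ∪ A j ∪ ⋃ A θ(x)`, `x ∉ L` of length `≤ 2b`. (`track_prod`, then multiply by `θ(wₑ)`: `A θ(wₑ)`; `A j θ(wₑ) = A j`; `A θ(v wₑ)`.) -/
theorem track (hj : j * j = 1) (A : Subgroup Y) (L : Subgroup X) (hL : ∀ l ∈ L, θ l ∈ A)
    (hX : ∀ x : X, j * θ x * j ∈ A) (b : ℕ)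
    (IH : ∀ w : X, β.B (2 * b) w → w ∉ L → cj θ j w ∈ A) {y : Y} (hy : Sm β θ j b y) :
    y ∈ A ∨ (∃ a ∈ A, y = a * j) ∨ ∃ x : X, β.B (2 * b) x ∧ x ∉ L ∧ ∃ a ∈ A, y = a * θ x := by
  obtain ⟨ws, we, hws, hwe, rfl⟩ := hy
  have h2b : b ≤ 2 * b := by omega
  rcases track_prod hj A L hL hX b IH ws hws with h1 | ⟨a, ha, h1⟩ | ⟨v, hv, hvL, a, ha, h1⟩
  · by_cases hL' : we ∈ L
    · left
      exact A.mul_mem h1 (hL _ hL')
    · right; right
      exact ⟨we, β.mono h2b hwe, hL', _, h1, rfl⟩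
  · right; left
    refine ⟨a * (j * θ we * j), A.mul_mem ha (hX we), ?_⟩
    rw [h1]
    calc a * j * θ we = a * (j * θ we) * (j * j) := by rw [hj]; group
      _ = a * (j * θ we * j) * j := by group
  · rw [h1, mul_assoc, ← map_mul]
    by_cases hL' : v * we ∈ L
    · left
      exact A.mul_mem ha (hL _ hL')
    · right; right
      have h3 := β.mul hv hwe
      rw [← two_mul] at h3
      exact ⟨v * we, h3, hL', a, ha, rfl⟩

/-! ### Alternating forms -/

variable (θ j) in
/-- Syllables: `none ↦ j`, `some u ↦ θ u`. -/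
def syl : Option X → Y
  | none => j
  | some u => θ u

/-- Alternating lists of syllables. -/
def IsAlt (l : List (Option X)) : Prop := l.IsChain (fun a b => a.isSome ≠ b.isSome)

/-- Cancelling equal neighbours (`cj_mul_cj`). Induction on `ws`: `ws = w :: ws'`, `vs'` for `ws'`; if `vs' = w :: vs''` take `vs''`, otherwise `w :: vs'`. -/
theorem exists_chain_ne (hj : j * j = 1) (ws : List X) :
    ∃ vs : List X, vs.IsChain (· ≠ ·) ∧ (∀ v ∈ vs, v ∈ ws) ∧
      (vs.map (cj θ j)).prod = (ws.map (cj θ j)).prod := by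
  classical
  induction ws with
  | nil => exact ⟨[], List.isChain_nil, fun v hv => hv, rfl⟩
  | cons w ws ih =>
    obtain ⟨vs, hc, hm, hp⟩ := ih
    cases vs with
    | nil =>
      refine ⟨[w], List.isChain_singleton w, ?_, ?_⟩
      · intro v hv
        rw [List.mem_singleton] at hv
        rw [hv]
        exact List.mem_cons_self
      · simp only [List.map_cons, List.prod_cons, ← hp]
    | cons v vs =>
      by_cases hvw : v = w
      · subst hvw
        refine ⟨vs, hc.tail,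
          fun u hu => List.mem_cons_of_mem _ (hm u (List.mem_cons_of_mem _ hu)), ?_⟩
        simp only [List.map_cons, List.prod_cons] at hp ⊢
        rw [← hp, ← mul_assoc, cj_mul_cj hj, one_mul]
      · refine ⟨w :: v :: vs, List.isChain_cons_cons.2 ⟨Ne.symm hvw, hc⟩, ?_, ?_⟩
        · intro u hu
          rcases List.mem_cons.1 hu with rfl | hu
          · exact List.mem_cons_self
          · exact List.mem_cons_of_mem _ (hm u hu)
        · simp only [List.map_cons, List.prod_cons] at hp ⊢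
          rw [hp]

/-- With a pending `θ(v)⁻¹` on the left, `v ≠` the first position:
`θ(v)⁻¹ cj(v₁) ⋯ cj(vₛ) θ(vₑ) = θ(v⁻¹v₁) j θ(v₁⁻¹v₂) j ⋯ j θ(vₛ⁻¹vₑ)` (the last syllable is dropped if `vₛ = vₑ`). Induction on `vs` generalizing `v`.
The list is empty or begins with a `some`. `vs = []`: `l = [some (v⁻¹ vₑ)]` or `[]`. `vs = v₁ :: vs'`: `l = some (v⁻¹ v₁) :: none :: l'`, `l'` for `v₁`, `vs'`. -/
theorem exists_alt_aux (b : ℕ) (vs : List X) (ve : X) (hvs : ∀ w ∈ vs, β.B b w) (hve : β.B b ve) (v : X)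
    (hv : β.B b v) (hch : (v :: vs).IsChain (· ≠ ·)) :
    ∃ l : List (Option X), IsAlt l ∧ (∀ u : X, some u ∈ l → u ≠ 1 ∧ β.B (2 * b) u) ∧
      (∀ a ∈ l.head?, a.isSome = true) ∧
      (θ v)⁻¹ * ((vs.map (cj θ j)).prod * θ ve) = (l.map (syl θ j)).prod := by
  classical
  induction vs generalizing v with
  | nil =>
    by_cases h1 : v⁻¹ * ve = 1
    · refine ⟨[], List.isChain_nil, fun u hu => absurd hu (by simp), fun a ha => by simp at ha, ?_⟩
      simp only [List.map_nil, List.prod_nil, one_mul]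
      rw [← map_inv, ← map_mul, h1, map_one]
    · refine ⟨[some (v⁻¹ * ve)], List.isChain_singleton _, ?_, ?_, ?_⟩
      · intro u hu
        rw [List.mem_singleton, Option.some.injEq] at hu
        subst hu
        exact ⟨h1, by rw [two_mul]; exact β.mul (β.inv hv) hve⟩
      · intro a ha
        simp only [List.head?_cons, Option.mem_def, Option.some.injEq] at ha
        rw [← ha]
        rfl
      · simp only [List.map_nil, List.prod_nil, one_mul, List.map_cons, List.prod_cons, mul_one, syl]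
        rw [← map_inv, ← map_mul]
  | cons v₁ vs ih =>
    rw [List.isChain_cons_cons] at hch
    obtain ⟨hne, hch'⟩ := hch
    have hv₁ : β.B b v₁ := hvs v₁ List.mem_cons_self
    obtain ⟨l, hl1, hl2, hl3, hl4⟩ :=
      ih (fun w hw => hvs w (List.mem_cons_of_mem _ hw)) v₁ hv₁ hch'
    refine ⟨some (v⁻¹ * v₁) :: none :: l, ?_, ?_, ?_, ?_⟩
    · refine List.isChain_cons_cons.2 ⟨by simp, ?_⟩
      refine List.isChain_cons.2 ⟨fun a ha => ?_, hl1⟩
      rw [hl3 a ha]
      simp
    · intro u hu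
      rcases List.mem_cons.1 hu with hu | hu
      · rw [Option.some.injEq] at hu
        subst hu
        refine ⟨fun h => hne ?_, by rw [two_mul]; exact β.mul (β.inv hv) hv₁⟩
        exact (inv_mul_eq_one.1 h)
      · rcases List.mem_cons.1 hu with hu | hu
        · exact absurd hu (by simp)
        · exact hl2 u hu
    · intro a ha
      simp only [List.head?_cons, Option.mem_def, Option.some.injEq] at ha
      rw [← ha]
      rfl
    · simp only [List.map_cons, List.prod_cons, syl]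
      rw [← hl4, map_mul, map_inv]
      simp only [cj, mul_assoc]

/-- ALTERNATING FORM. `exists_chain_ne`; then `vs = []`: `y = θ(wₑ)`, `wₑ ≠ 1`. `vs = v₁ :: vs'`: `y = θ(v₁) j (θ(v₁)⁻¹ cj(v₂) ⋯)`, apply `exists_alt_aux` to `v₁`, `vs'`
and prepend `j`, and `θ(v₁)` if `v₁ ≠ 1`. -/
theorem exists_alt (hj : j * j = 1) {b : ℕ} {y : Y} (hy : Sm β θ j b y) (hy1 : y ≠ 1) :
    ∃ l : List (Option X), l ≠ [] ∧ IsAlt l ∧ (∀ u : X, some u ∈ l → u ≠ 1 ∧ β.B (2 * b) u) ∧
      y = (l.map (syl θ j)).prod := by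
  classical
  obtain ⟨ws, we, hws, hwe, rfl⟩ := hy
  obtain ⟨vs, hc, hm, hp⟩ := exists_chain_ne (θ := θ) hj ws
  rw [← hp] at hy1 ⊢
  have hb : b ≤ 2 * b := by omega
  cases vs with
  | nil =>
    simp only [List.map_nil, List.prod_nil, one_mul] at hy1 ⊢
    refine ⟨[some we], by simp, List.isChain_singleton _, ?_, ?_⟩
    · intro u hu
      rw [List.mem_singleton, Option.some.injEq] at hu
      subst hu
      exact ⟨fun h => hy1 (by rw [h, map_one]), β.mono hb hwe⟩
    · simp [syl]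
  | cons v₁ vs =>
    have hv₁ : β.B b v₁ := hws v₁ (hm v₁ List.mem_cons_self)
    obtain ⟨l, hl1, hl2, hl3, hl4⟩ := exists_alt_aux (β := β) (θ := θ) (j := j) b vs we
      (fun w hw => hws w (hm w (List.mem_cons_of_mem _ hw))) hwe v₁ hv₁ hc
    have hnl : IsAlt (none :: l) := by
      refine List.isChain_cons.2 ⟨fun a ha => ?_, hl1⟩
      rw [hl3 a ha]
      simp
    have hy : ((v₁ :: vs).map (cj θ j)).prod * θ we = θ v₁ * (j * (l.map (syl θ j)).prod) := by
      rw [← hl4]
      simp only [List.map_cons, List.prod_cons, cj, mul_assoc]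
    by_cases h1 : v₁ = 1
    · refine ⟨none :: l, by simp, hnl, ?_, ?_⟩
      · intro u hu
        rcases List.mem_cons.1 hu with hu | hu
        · exact absurd hu (by simp)
        · exact hl2 u hu
      · rw [hy, h1, map_one, one_mul]
        simp only [List.map_cons, List.prod_cons, syl]
    · refine ⟨some v₁ :: none :: l, by simp, List.isChain_cons_cons.2 ⟨by simp, hnl⟩, ?_, ?_⟩
      · intro u hu
        rcases List.mem_cons.1 hu with hu | hu
        · rw [Option.some.injEq] at hu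
          subst hu
          exact ⟨h1, β.mono hb hv₁⟩
        · rcases List.mem_cons.1 hu with hu | hu
          · exact absurd hu (by simp)
          · exact hl2 u hu
      · rw [hy]
        simp only [List.map_cons, List.prod_cons, syl]

end Claimed.Agent.R152.GC
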